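import Mathlib

/-!
# P227: support functions, Wulff bodies and centred bodies in `Fin n → ℝ`
-/

namespace Vale.Agent.P227

open MeasureTheory Set Matrix Function
open scoped ENNReal

noncomputable section

variable {n : ℕ}

/-- The support function. -/
def supp (K : Set (Fin n → ℝ)) (u : Fin n → ℝ) : ℝ := sSup ((u ⬝ᵥ ·) '' K)

/-- The Wulff body of a function of the directions. -/
def wulff (f : (Fin n → ℝ) → ℝ) : Set (Fin n → ℝ) := {x | ∀ u, u ⬝ᵥ x ≤ f u}

/-- The logarithmic combination. -/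
def comb (l : ℝ) (K L : Set (Fin n → ℝ)) : Set (Fin n → ℝ) :=
  wulff fun u => supp K u ^ (1 - l) * supp L u ^ l

/-- The logarithmic midpoint. -/
def half (K L : Set (Fin n → ℝ)) : Set (Fin n → ℝ) :=
  wulff fun u => √(supp K u * supp L u)

/-- A compact convex set symmetric about the origin, possibly flat. -/
structure Ctr (K : Set (Fin n → ℝ)) : Prop where
  compact : IsCompact K
  convex : Convex ℝ K
  nonempty : K.Nonempty
  neg_mem : ∀ x ∈ K, -x ∈ K

/-- The reflection in a coordinate hyperplane. -/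
def flip (i : Fin n) (x : Fin n → ℝ) : Fin n → ℝ := update x i (-x i)

/-- Invariance under the reflection. -/
def FlipInv (i : Fin n) (K : Set (Fin n → ℝ)) : Prop := ∀ x ∈ K, flip i x ∈ K

theorem flip_flip (i : Fin n) (x : Fin n → ℝ) : flip i (flip i x) = x := by
  funext j
  rcases eq_or_ne j i with rfl | h
  · simp [flip]
  · simp [flip, h]

theorem flip_dotProduct (i : Fin n) (u x : Fin n → ℝ) : flip i u ⬝ᵥ x = u ⬝ᵥ flip i x := by
  refine Finset.sum_congr rfl fun j _ => ?_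
  rcases eq_or_ne j i with rfl | h
  · simp [flip]
  · simp [flip, h]

theorem continuous_dot (u : Fin n → ℝ) : Continuous fun x : Fin n → ℝ => u ⬝ᵥ x :=
  continuous_finsetSum _ fun i _ => continuous_const.mul (continuous_apply i)

variable {K L : Set (Fin n → ℝ)}

theorem le_supp (hK : Ctr K) {x : Fin n → ℝ} (hx : x ∈ K) (u : Fin n → ℝ) :
    u ⬝ᵥ x ≤ supp K u :=
  le_csSup (hK.compact.image (continuous_dot u)).bddAbove ⟨x, hx, rfl⟩

theorem exists_supp (hK : Ctr K) (u : Fin n → ℝ) : ∃ x ∈ K, u ⬝ᵥ x = supp K u :=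
  (hK.compact.image (continuous_dot u)).sSup_mem (hK.nonempty.image _)

theorem supp_le (hK : Ctr K) {u : Fin n → ℝ} {c : ℝ} (h : ∀ x ∈ K, u ⬝ᵥ x ≤ c) :
    supp K u ≤ c := by
  obtain ⟨x, hx, he⟩ := exists_supp hK u
  exact he ▸ h x hx

theorem abs_le_supp (hK : Ctr K) {x : Fin n → ℝ} (hx : x ∈ K) (u : Fin n → ℝ) :
    |u ⬝ᵥ x| ≤ supp K u := by
  refine abs_le'.2 ⟨le_supp hK hx u, ?_⟩
  rw [← dotProduct_neg]
  exact le_supp hK (hK.neg_mem x hx) u

theorem supp_nonneg (hK : Ctr K) (u : Fin n → ℝ) : 0 ≤ supp K u := by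
  obtain ⟨x, hx⟩ := hK.nonempty
  exact (abs_nonneg _).trans (abs_le_supp hK hx u)

theorem supp_neg (hK : Ctr K) (u : Fin n → ℝ) : supp K (-u) = supp K u := by
  have h : ∀ v, supp K (-v) ≤ supp K v := fun v => supp_le hK fun x hx => by
    rw [neg_dotProduct]
    exact (neg_le_abs _).trans (abs_le_supp hK hx v)
  exact le_antisymm (h u) (by simpa using h (-u))

theorem supp_flip (hK : Ctr K) {i : Fin n} (hi : FlipInv i K) (u : Fin n → ℝ) :
    supp K (flip i u) = supp K u := by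
  have h : ∀ v, supp K (flip i v) ≤ supp K v := fun v => supp_le hK fun x hx => by
    rw [flip_dotProduct]
    exact le_supp hK (hi x hx) v
  exact le_antisymm (h u) (by simpa [flip_flip] using h (flip i u))

theorem continuous_supp (hK : Ctr K) : Continuous (supp K) :=
  hK.compact.continuous_sSup (f := fun u x => u ⬝ᵥ x)
    (show Continuous fun p : (Fin n → ℝ) × (Fin n → ℝ) => ∑ i, p.1 i * p.2 i from
      continuous_finsetSum _ fun i _ => by fun_prop)

theorem zero_mem (hK : Ctr K) : (0 : Fin n → ℝ) ∈ K := by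
  obtain ⟨x, hx⟩ := hK.nonempty
  have := hK.convex hx (hK.neg_mem x hx) (show (0 : ℝ) ≤ 1 / 2 by norm_num)
    (show (0 : ℝ) ≤ 1 / 2 by norm_num) (by norm_num)
  simpa using this

theorem supp_pos (hK : Ctr K) (hv : volume K ≠ 0) {u : Fin n → ℝ} (hu : u ≠ 0) :
    0 < supp K u := by
  refine (supp_nonneg hK u).lt_of_ne fun h => hv ?_
  set φ : (Fin n → ℝ) →ₗ[ℝ] ℝ :=
    { toFun := fun x => u ⬝ᵥ x
      map_add' := fun x y => dotProduct_add u x y
      map_smul' := fun c x => dotProduct_smul c u x }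
  refine measure_mono_null (t := (LinearMap.ker φ : Set (Fin n → ℝ))) (fun x hx => ?_)
    (Measure.addHaar_submodule _ _ fun htop => ?_)
  · show u ⬝ᵥ x = 0
    exact abs_nonpos_iff.1 (h ▸ abs_le_supp hK hx u)
  · have : u ⬝ᵥ u = 0 := LinearMap.congr_fun (LinearMap.ker_eq_top.1 htop) u
    exact hu (dotProduct_self_eq_zero.1 this)

theorem wulff_mono {f g : (Fin n → ℝ) → ℝ} (h : ∀ u, f u ≤ g u) : wulff f ⊆ wulff g :=
  fun _ hx u => (hx u).trans (h u)

theorem isClosed_wulff (f : (Fin n → ℝ) → ℝ) : IsClosed (wulff f) := by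
  rw [show wulff f = ⋂ u, {x | u ⬝ᵥ x ≤ f u} by ext x; simp [wulff]]
  exact isClosed_iInter fun u => isClosed_le (continuous_dot u) continuous_const

theorem abs_apply_le_wulff {f : (Fin n → ℝ) → ℝ} (hf : ∀ u, f (-u) = f u) {x : Fin n → ℝ}
    (hx : x ∈ wulff f) (i : Fin n) : |x i| ≤ f (Pi.single i 1) := by
  refine abs_le'.2 ⟨?_, ?_⟩
  · simpa using hx (Pi.single i 1)
  · have := hx (-Pi.single i 1)
    rw [hf] at this
    simpa using this

theorem ctr_wulff {f : (Fin n → ℝ) → ℝ} (hf0 : ∀ u, 0 ≤ f u) (hf : ∀ u, f (-u) = f u) :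
    Ctr (wulff f) where
  compact := by
    refine (isCompact_univ_pi fun i : Fin n =>
      isCompact_Icc (a := -f (Pi.single i 1)) (b := f (Pi.single i 1))).of_isClosed_subset
      (isClosed_wulff f) fun x hx i _ => ?_
    exact abs_le.1 (abs_apply_le_wulff hf hx i)
  convex := fun x hx y hy a b ha hb hab u => by
    rw [dotProduct_add, dotProduct_smul, dotProduct_smul, smul_eq_mul, smul_eq_mul]
    calc a * (u ⬝ᵥ x) + b * (u ⬝ᵥ y) ≤ a * f u + b * f u :=
          add_le_add (mul_le_mul_of_nonneg_left (hx u) ha) (mul_le_mul_of_nonneg_left (hy u) hb)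
      _ = f u := by rw [← add_mul, hab, one_mul]
  nonempty := ⟨0, fun u => by simpa using hf0 u⟩
  neg_mem := fun x hx u => by
    rw [dotProduct_neg, ← neg_dotProduct, ← hf u]
    exact hx (-u)

theorem flipInv_wulff {f : (Fin n → ℝ) → ℝ} {i : Fin n} (hf : ∀ u, f (flip i u) = f u) :
    FlipInv i (wulff f) := fun x hx u => by
  rw [← flip_dotProduct, ← hf u]
  exact hx (flip i u)

theorem supp_wulff_le {f : (Fin n → ℝ) → ℝ} (hf0 : ∀ u, 0 ≤ f u) (hf : ∀ u, f (-u) = f u)
    (u : Fin n → ℝ) : supp (wulff f) u ≤ f u :=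
  supp_le (ctr_wulff hf0 hf) fun _ hx => hx u

theorem ctr_half (hK : Ctr K) (hL : Ctr L) : Ctr (half K L) :=
  ctr_wulff (fun _ => Real.sqrt_nonneg _) fun u => by simp [supp_neg hK, supp_neg hL]

theorem ctr_comb (hK : Ctr K) (hL : Ctr L) (l : ℝ) : Ctr (comb l K L) :=
  ctr_wulff (fun u => mul_nonneg (Real.rpow_nonneg (supp_nonneg hK u) _)
    (Real.rpow_nonneg (supp_nonneg hL u) _)) fun u => by simp [supp_neg hK, supp_neg hL]

theorem flipInv_half (hK : Ctr K) (hL : Ctr L) {i : Fin n} (hiK : FlipInv i K)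
    (hiL : FlipInv i L) : FlipInv i (half K L) :=
  flipInv_wulff fun u => by simp [supp_flip hK hiK, supp_flip hL hiL]

theorem flipInv_comb (hK : Ctr K) (hL : Ctr L) (l : ℝ) {i : Fin n} (hiK : FlipInv i K)
    (hiL : FlipInv i L) : FlipInv i (comb l K L) :=
  flipInv_wulff fun u => by simp [supp_flip hK hiK, supp_flip hL hiL]

end

end Vale.Agent.P227
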