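import Vale.Agent.P227.Symmetric

/-!
# P227: all exponents, all linear bases
-/

namespace Vale.Agent.P227

open MeasureTheory Set Matrix Function Filter
open scoped ENNReal Topology

noncomputable section

variable {n : ℕ} {K L : Set (Fin n → ℝ)}

theorem rpow_mul_rpow_le_max {a b : ℝ} (ha : 0 ≤ a) (hb : 0 ≤ b) {l : ℝ} (hl : l ∈ Icc (0 : ℝ) 1) :
    a ^ (1 - l) * b ^ l ≤ max a b := by
  refine (Real.geom_mean_le_arith_mean2_weighted (sub_nonneg.2 hl.2) hl.1 ha hb
    (sub_add_cancel _ _)).trans ?_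
  calc (1 - l) * a + l * b ≤ (1 - l) * max a b + l * max a b :=
        add_le_add (mul_le_mul_of_nonneg_left (le_max_left _ _) (sub_nonneg.2 hl.2))
          (mul_le_mul_of_nonneg_left (le_max_right _ _) hl.1)
    _ = max a b := by ring

/-- Every exponent, once the midpoint inequality is known for a class closed under `comb`. -/
theorem comb_le (G : Set (Fin n → ℝ) → Prop) (hG : ∀ A, G A → Ctr A)
    (hcl : ∀ A B l, G A → G B → G (comb l A B))
    (hhalf : ∀ A B, G A → G B → volume A * volume B ≤ volume (half A B) ^ 2)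
    (hK : G K) (hL : G L) (hKv : volume K ≠ 0) (hLv : volume L ≠ 0)
    {l : ℝ} (hl : l ∈ Icc (0 : ℝ) 1) :
    volume K ^ (1 - l) * volume L ^ l ≤ volume (comb l K L) := by
  have cK := hG K hK
  have cL := hG L hL
  have hfin : ∀ {A : Set (Fin n → ℝ)}, Ctr A → volume A ≠ ⊤ := fun h => h.compact.measure_lt_top.ne
  set a := (volume K).toReal
  set b := (volume L).toReal
  have ha : 0 < a := ENNReal.toReal_pos hKv (hfin cK)
  have hb : 0 < b := ENNReal.toReal_pos hLv (hfin cL)
  set V : ℝ → ℝ := fun l => (volume (comb l K L)).toReal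
  have hd : ∀ j k : ℕ, k ≤ 2 ^ j →
      a ^ (1 - (k : ℝ) / 2 ^ j) * b ^ ((k : ℝ) / 2 ^ j) ≤ V ((k : ℝ) / 2 ^ j) := by
    intro j
    induction j with
    | zero =>
      intro k hk
      have hsub : ∀ A : Set (Fin n → ℝ), A ⊆ comb ((k : ℝ) / 2 ^ 0) K L →
          (volume A).toReal ≤ V ((k : ℝ) / 2 ^ 0) := fun A hA =>
        ENNReal.toReal_mono (hfin (ctr_comb cK cL _)) (measure_mono hA)
      have hk' : k = 0 ∨ k = 1 := by
        have : k ≤ 1 := by simpa using hk
        omega
      rcases hk' with rfl | rfl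
      · refine le_of_eq_of_le (by simp [a]) (hsub K fun x hx u => ?_)
        simpa using le_supp cK hx u
      · refine le_of_eq_of_le (by simp [b]) (hsub L fun x hx u => ?_)
        simpa using le_supp cL hx u
    | succ j ih =>
      intro k hk
      rw [pow_succ] at hk
      obtain ⟨q, rfl | rfl⟩ : ∃ q, k = 2 * q ∨ k = 2 * q + 1 := ⟨k / 2, by omega⟩
      · have e : ((2 * q : ℕ) : ℝ) / 2 ^ (j + 1) = (q : ℝ) / 2 ^ j := by
          push_cast; rw [pow_succ]; field_simp
        rw [e]
        exact ih q (by omega)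
      · set l₁ := (q : ℝ) / 2 ^ j with hl₁
        set l₂ := ((q + 1 : ℕ) : ℝ) / 2 ^ j with hl₂
        have e : ((2 * q + 1 : ℕ) : ℝ) / 2 ^ (j + 1) = (l₁ + l₂) / 2 := by
          rw [hl₁, hl₂]; push_cast; rw [pow_succ]; field_simp; ring
        rw [e]
        have i₁ := ih q (by omega)
        have i₂ := ih (q + 1) (by omega)
        rw [← hl₁] at i₁
        rw [← hl₂] at i₂
        set A := comb l₁ K L
        set B := comb l₂ K L
        have cA : Ctr A := ctr_comb cK cL l₁
        have cB : Ctr B := ctr_comb cK cL l₂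
        have hsub : half A B ⊆ comb ((l₁ + l₂) / 2) K L := by
          intro x hx u
          rcases eq_or_ne u 0 with rfl | hu
          · rw [zero_dotProduct]
            exact mul_nonneg (Real.rpow_nonneg (supp_nonneg cK 0) _)
              (Real.rpow_nonneg (supp_nonneg cL 0) _)
          have hp := supp_pos cK hKv hu
          have hq := supp_pos cL hLv hu
          have hbd : ∀ t, supp (comb t K L) u ≤ supp K u ^ (1 - t) * supp L u ^ t := fun t =>
            supp_le (ctr_comb cK cL t) fun _ hx => hx u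
          refine (hx u).trans ?_
          calc √(supp A u * supp B u)
              ≤ √((supp K u ^ (1 - l₁) * supp L u ^ l₁) * (supp K u ^ (1 - l₂) * supp L u ^ l₂)) :=
                Real.sqrt_le_sqrt (mul_le_mul (hbd l₁) (hbd l₂) (supp_nonneg cB u) (by positivity))
            _ = _ := by
                rw [Real.sqrt_eq_iff_eq_sq (by positivity) (by positivity), mul_mul_mul_comm,
                  ← Real.rpow_add hp, ← Real.rpow_add hq, sq, mul_mul_mul_comm,
                  ← Real.rpow_add hp, ← Real.rpow_add hq]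
                congr 2 <;> ring
        have h := (hhalf A B (hcl _ _ _ hK hL) (hcl _ _ _ hK hL)).trans
          (pow_le_pow_left' (measure_mono hsub) 2)
        have h' := ENNReal.toReal_mono (ENNReal.pow_ne_top (hfin (ctr_comb cK cL _))) h
        rw [ENNReal.toReal_mul, ENNReal.toReal_pow] at h'
        refine le_of_pow_le_pow_left₀ two_ne_zero ENNReal.toReal_nonneg (le_trans (le_trans
          (le_of_eq ?_) (mul_le_mul i₁ i₂ (by positivity) ENNReal.toReal_nonneg)) h')
        rw [sq, mul_mul_mul_comm, ← Real.rpow_add ha, ← Real.rpow_add hb, mul_mul_mul_comm,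
          ← Real.rpow_add ha, ← Real.rpow_add hb]
        congr 2 <;> ring
  -- the limit
  set lj : ℕ → ℝ := fun j => (⌊l * 2 ^ j⌋₊ : ℝ) / 2 ^ j
  have hlj : Tendsto lj atTop (𝓝 l) :=
    (tendsto_nat_floor_mul_div_atTop hl.1).comp (tendsto_pow_atTop_atTop_of_one_lt one_lt_two)
  have hlj01 : ∀ j, lj j ∈ Icc (0 : ℝ) 1 ∧ ⌊l * 2 ^ j⌋₊ ≤ 2 ^ j := by
    intro j
    have h : ⌊l * 2 ^ j⌋₊ ≤ 2 ^ j := Nat.floor_le_of_le (by
      push_cast
      exact mul_le_of_le_one_left (by positivity) hl.2)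
    refine ⟨⟨by positivity, (div_le_one (by positivity)).2 ?_⟩, h⟩
    exact_mod_cast h
  set Bx : Set (Fin n → ℝ) := univ.pi fun i =>
    Icc (-max (supp K (Pi.single i 1)) (supp L (Pi.single i 1)))
      (max (supp K (Pi.single i 1)) (supp L (Pi.single i 1)))
  have hBx : volume Bx ≠ ⊤ :=
    (isCompact_univ_pi fun i : Fin n => isCompact_Icc).measure_lt_top.ne
  set U : ℕ → Set (Fin n → ℝ) := fun N => ⋃ j ∈ Ici N, comb (lj j) K L
  have hUB : ∀ N, U N ⊆ Bx := fun N x hx i _ => by
    simp only [U, mem_iUnion] at hx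
    obtain ⟨j, -, hj⟩ := hx
    refine abs_le.1 ((abs_apply_le_wulff (fun u => ?_) hj i).trans
      (rpow_mul_rpow_le_max (supp_nonneg cK _) (supp_nonneg cL _) (hlj01 j).1))
    simp [supp_neg cK, supp_neg cL]
  have hanti : Antitone U := fun M N hMN =>
    biUnion_mono (Ici_subset_Ici.2 hMN) fun _ _ => subset_rfl
  have hUm : ∀ N, MeasurableSet (U N) := fun N =>
    MeasurableSet.biUnion (to_countable _) fun j _ => (ctr_comb cK cL _).compact.measurableSet
  have hinter : ⋂ N, U N ⊆ comb l K L := by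
    intro x hx u
    rcases eq_or_ne u 0 with rfl | hu
    · rw [zero_dotProduct]
      exact mul_nonneg (Real.rpow_nonneg (supp_nonneg cK 0) _)
        (Real.rpow_nonneg (supp_nonneg cL 0) _)
    have hp := supp_pos cK hKv hu
    have hq := supp_pos cL hLv hu
    have hc : Tendsto (fun j => supp K u ^ (1 - lj j) * supp L u ^ lj j) atTop
        (𝓝 (supp K u ^ (1 - l) * supp L u ^ l)) :=
      (((Real.continuousAt_const_rpow hp.ne').tendsto.comp (tendsto_const_nhds.sub hlj))).mul
        ((Real.continuousAt_const_rpow hq.ne').tendsto.comp hlj)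
    by_contra hcon
    push Not at hcon
    obtain ⟨N, hN⟩ := eventually_atTop.1 (hc.eventually (gt_mem_nhds hcon))
    have hxN := mem_iInter.1 hx N
    simp only [U, mem_iUnion] at hxN
    obtain ⟨j, hj, hxj⟩ := hxN
    exact (hN j hj).not_ge (hxj u)
  have hlim := tendsto_measure_iInter_atTop (μ := volume)
    (fun N => (hUm N).nullMeasurableSet) hanti ⟨0, measure_ne_top_of_subset (hUB 0) hBx⟩
  have hge : ∀ N, ENNReal.ofReal (a ^ (1 - lj N) * b ^ lj N) ≤ volume (U N) := fun N => by
    refine le_trans ?_ (measure_mono (subset_biUnion_of_mem (u := fun j => comb (lj j) K L)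
      (show N ∈ Ici N from le_refl N)))
    exact (ENNReal.ofReal_le_ofReal (hd N _ (hlj01 N).2)).trans ENNReal.ofReal_toReal_le
  have hc' : Tendsto (fun N => ENNReal.ofReal (a ^ (1 - lj N) * b ^ lj N)) atTop
      (𝓝 (ENNReal.ofReal (a ^ (1 - l) * b ^ l))) :=
    ENNReal.tendsto_ofReal
      ((((Real.continuousAt_const_rpow ha.ne').tendsto.comp (tendsto_const_nhds.sub hlj))).mul
        ((Real.continuousAt_const_rpow hb.ne').tendsto.comp hlj))
  refine le_trans (le_of_eq ?_) ((le_of_tendsto_of_tendsto hc' hlim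
    (Eventually.of_forall hge)).trans (measure_mono hinter))
  rw [ENNReal.ofReal_mul (by positivity), ← ENNReal.ofReal_rpow_of_pos ha,
    ← ENNReal.ofReal_rpow_of_pos hb, ENNReal.ofReal_toReal (hfin cK),
    ENNReal.ofReal_toReal (hfin cL)]

/-- Bodies with common coordinate reflections, all exponents. -/
theorem comb_le_flip {m : ℕ} {S : Finset (Fin (m + 2))} (hS : S.card = m)
    {K L : Set (Fin (m + 2) → ℝ)} (hK : Ctr K) (hL : Ctr L) (hSK : ∀ i ∈ S, FlipInv i K)
    (hSL : ∀ i ∈ S, FlipInv i L) (hKv : volume K ≠ 0) (hLv : volume L ≠ 0) {l : ℝ}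
    (hl : l ∈ Icc (0 : ℝ) 1) : volume K ^ (1 - l) * volume L ^ l ≤ volume (comb l K L) :=
  comb_le (fun A => Ctr A ∧ ∀ i ∈ S, FlipInv i A) (fun _ h => h.1)
    (fun _ _ l hA hB => ⟨ctr_comb hA.1 hB.1 l,
      fun i hi => flipInv_comb hA.1 hB.1 l (hA.2 i hi) (hB.2 i hi)⟩)
    (fun A B hA hB => half_le m S hS A B hA.1 hB.1 hA.2 hB.2) ⟨hK, hSK⟩ ⟨hL, hSL⟩ hKv hLv hl

/-- Common linear reflections of a basis, all exponents. -/
theorem comb_le_basis {m : ℕ} {S : Finset (Fin (m + 2))} (hS : S.card = m)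
    (bs : Module.Basis (Fin (m + 2)) ℝ (Fin (m + 2) → ℝ))
    {K L : Set (Fin (m + 2) → ℝ)} (hK : Ctr K) (hL : Ctr L)
    (hSK : ∀ i ∈ S, ∀ x ∈ K, x - (2 * bs.equivFun x i) • bs i ∈ K)
    (hSL : ∀ i ∈ S, ∀ x ∈ L, x - (2 * bs.equivFun x i) • bs i ∈ L)
    (hKv : volume K ≠ 0) (hLv : volume L ≠ 0) {l : ℝ}
    (hl : l ∈ Icc (0 : ℝ) 1) : volume K ^ (1 - l) * volume L ^ l ≤ volume (comb l K L) := by
  set T := bs.equivFun
  have hTc : Continuous T := T.toLinearMap.continuous_of_finiteDimensional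
  have hctr : ∀ A, Ctr A → Ctr (T '' A) := fun A hA =>
    { compact := hA.compact.image hTc
      convex := hA.convex.linear_image T.toLinearMap
      nonempty := hA.nonempty.image T
      neg_mem := by
        rintro _ ⟨a, ha, rfl⟩
        exact ⟨-a, hA.neg_mem a ha, map_neg T a⟩ }
  have hflip : ∀ A, (∀ i ∈ S, ∀ x ∈ A, x - (2 * T x i) • bs i ∈ A) →
      ∀ i ∈ S, FlipInv i (T '' A) := by
    rintro A hA i hi _ ⟨x, hx, rfl⟩
    refine ⟨_, hA i hi x hx, ?_⟩
    funext j
    rw [map_sub, map_smul]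
    rcases eq_or_ne j i with rfl | h
    · simp [T, flip, Module.Basis.equivFun_self]; ring
    · simp [T, flip, Module.Basis.equivFun_self, h, h.symm]
  set d := ENNReal.ofReal |LinearMap.det T.toLinearMap|
  have hd0 : d ≠ 0 := by simp [d, (LinearEquiv.isUnit_det' T).ne_zero]
  have hvol : ∀ A, volume (T '' A) = d * volume A := fun A =>
    Measure.addHaar_image_linearMap volume T.toLinearMap A
  have hdot : ∀ (u x : Fin (m + 2) → ℝ), u ⬝ᵥ x = (fun j => u ⬝ᵥ bs j) ⬝ᵥ T x := by
    intro u x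
    conv_lhs => rw [← bs.sum_equivFun x, dotProduct_sum]
    exact Finset.sum_congr rfl fun j _ => by rw [dotProduct_smul, smul_eq_mul, mul_comm]
  have hsupp : ∀ (A : Set (Fin (m + 2) → ℝ)) u,
      supp (T '' A) (fun j => u ⬝ᵥ bs j) = supp A u := by
    intro A u
    unfold supp
    rw [image_image]
    congr 1
    exact image_congr fun x _ => (hdot u x).symm
  have hsub : comb l (T '' K) (T '' L) ⊆ T '' comb l K L := by
    intro y hy
    refine ⟨T.symm y, fun u => ?_, T.apply_symm_apply y⟩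
    rw [hdot, T.apply_symm_apply]
    show _ ≤ supp K u ^ (1 - l) * supp L u ^ l
    rw [← hsupp K u, ← hsupp L u]
    exact hy _
  have h := (comb_le_flip hS (hctr K hK) (hctr L hL) (hflip K hSK) (hflip L hSL)
    (by rw [hvol]; exact mul_ne_zero hd0 hKv) (by rw [hvol]; exact mul_ne_zero hd0 hLv) hl).trans
      (measure_mono hsub)
  rw [hvol, hvol, hvol, ENNReal.mul_rpow_of_nonneg _ _ (sub_nonneg.2 hl.2),
    ENNReal.mul_rpow_of_nonneg _ _ hl.1, mul_mul_mul_comm,
    ← ENNReal.rpow_add _ _ hd0 ENNReal.ofReal_ne_top, sub_add_cancel, ENNReal.rpow_one] at h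
  exact (ENNReal.mul_le_mul_iff_right hd0 ENNReal.ofReal_ne_top).1 h

end

end Vale.Agent.P227
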