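import Vale.Agent.P227.Defs
import Vale.Agent.P047.Disproof.Prekopa

/-!
# P227: the logarithmic Brunn–Minkowski inequality in the plane, from scratch

The polygon `P = {x | ∀ j, |u_j ⬝ x| ≤ f_j}` is cut into the cones where `|u_j ⬝ x| / f_j` is the
first maximum.  Its enlargement `P + s K` is covered by dilated cones, and the linearity of the
area of equal-width combinations gives a quadratic inequality for every ratio; the logarithm is
then bounded below by a chord.
-/

namespace Vale.Agent.P227

open MeasureTheory Set Matrix Function Pointwise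
open scoped ENNReal

noncomputable section

/-- Numbers between the roots of `t² - 2 m t + q` with mean `m` have geometric mean at least
`√q`. -/
theorem chord {ι : Type*} [Fintype ι] (w t : ι → ℝ) (hw0 : ∀ i, 0 ≤ w i) (hw1 : ∑ i, w i = 1)
    {m q : ℝ} (hm : ∑ i, w i * t i = m) (hq : 0 < q)
    (ht : ∀ i, 0 < w i → 0 < t i ∧ t i ^ 2 - 2 * m * t i + q ≤ 0) :
    Real.log q / 2 ≤ ∑ i, w i * Real.log (t i) := by
  obtain ⟨i₀, hi₀⟩ : ∃ i, 0 < w i := by
    by_contra! h
    have : ∑ i, w i = 0 := Finset.sum_eq_zero fun i _ => le_antisymm (h i) (hw0 i)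
    linarith
  obtain ⟨ht₀, hb₀⟩ := ht i₀ hi₀
  have hd0 : 0 ≤ m ^ 2 - q := by nlinarith [sq_nonneg (t i₀ - m)]
  have hm0 : 0 < m := by
    by_contra! h
    nlinarith [sq_nonneg (t i₀), mul_nonneg (neg_nonneg.2 h) ht₀.le]
  set d := √(m ^ 2 - q) with hd
  have hd2 : d ^ 2 = m ^ 2 - q := Real.sq_sqrt hd0
  have hdm : d < m := (abs_lt_of_sq_lt_sq' (by linarith) hm0.le).2
  have hab : ∀ i, 0 < w i → m - d ≤ t i ∧ t i ≤ m + d := by
    intro i hi
    obtain ⟨-, h⟩ := ht i hi
    have h' : (t i - m) ^ 2 ≤ d ^ 2 := by rw [hd2]; nlinarith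
    obtain ⟨h1, h2⟩ := abs_le_of_sq_le_sq' h' (Real.sqrt_nonneg _)
    exact ⟨by linarith, by linarith⟩
  have hlog : Real.log q = Real.log (m - d) + Real.log (m + d) := by
    rw [← Real.log_mul (by linarith) (by linarith [Real.sqrt_nonneg (m ^ 2 - q)])]
    congr 1
    linear_combination hd2
  rcases (Real.sqrt_nonneg (m ^ 2 - q)).eq_or_lt with h0 | h0
  · rw [← hd] at h0
    have hall : ∀ i, w i * Real.log (t i) = w i * (Real.log q / 2) := by
      intro i
      rcases (hw0 i).eq_or_lt with hi | hi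
      · simp [← hi]
      · obtain ⟨h1, h2⟩ := hab i hi
        rw [hlog, ← h0, sub_zero, add_zero, show t i = m by linarith]
        ring
    rw [Finset.sum_congr rfl fun i _ => hall i, ← Finset.sum_mul, hw1, one_mul]
  · rw [← hd] at h0
    have hstep : ∀ i, w i * ((1 - (t i - (m - d)) / (2 * d)) * Real.log (m - d)
        + (t i - (m - d)) / (2 * d) * Real.log (m + d)) ≤ w i * Real.log (t i) := by
      intro i
      rcases (hw0 i).eq_or_lt with hi | hi
      · simp [← hi]
      · obtain ⟨h1, h2⟩ := hab i hi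
        refine mul_le_mul_of_nonneg_left ?_ hi.le
        have hθ0 : 0 ≤ (t i - (m - d)) / (2 * d) := div_nonneg (by linarith) (by linarith)
        have hθ1 : (t i - (m - d)) / (2 * d) ≤ 1 := (div_le_one (by linarith)).2 (by linarith)
        have h := strictConcaveOn_log_Ioi.concaveOn.2 (x := m - d) (y := m + d)
          (show (0 : ℝ) < m - d by linarith) (show (0 : ℝ) < m + d by linarith)
          (sub_nonneg.2 hθ1) hθ0 (sub_add_cancel _ _)
        simp only [smul_eq_mul] at h
        refine h.trans (le_of_eq (congrArg Real.log ?_))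
        field_simp
        ring
    refine le_trans (le_of_eq ?_) (Finset.sum_le_sum fun i _ => hstep i)
    have hθ : ∑ i, w i * ((t i - (m - d)) / (2 * d)) = 1 / 2 := by
      simp only [← mul_div_assoc, mul_sub, ← Finset.sum_div, Finset.sum_sub_distrib,
        ← Finset.sum_mul, hm, hw1]
      field_simp
      ring
    simp only [mul_add, ← mul_assoc, mul_sub, mul_one, Finset.sum_add_distrib, ← Finset.sum_mul,
      Finset.sum_sub_distrib, hw1, hθ]
    rw [hlog]
    ring

/-- The section of a plane set over a value of the first coordinate. -/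
def sec2 (A : Set (Fin 2 → ℝ)) (z : ℝ) : Set ℝ := {y | ![z, y] ∈ A}

theorem volume_eq_lintegral_sec2 {A : Set (Fin 2 → ℝ)} (hA : MeasurableSet A) :
    volume A = ∫⁻ z, volume (sec2 A z) := by
  have mp := (volume_preserving_finTwoArrow ℝ).symm
  rw [← mp.measure_preimage hA.nullMeasurableSet, Measure.volume_eq_prod,
    Measure.prod_apply (mp.measurable hA)]
  rfl

theorem continuous_vec2 (z : ℝ) : Continuous fun y : ℝ => ![z, y] :=
  continuous_pi fun i => by
    fin_cases i
    · exact continuous_const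
    · exact continuous_id

theorem isCompact_sec2 {A : Set (Fin 2 → ℝ)} (hA : IsCompact A) (z : ℝ) :
    IsCompact (sec2 A z) :=
  (hA.image (continuous_apply 1)).of_isClosed_subset (hA.isClosed.preimage (continuous_vec2 z))
    fun _ hy => ⟨_, hy, rfl⟩

/-- Linearity of the area for bodies with the same width, first coordinate. -/
theorem equal_width_zero {P K S : Set (Fin 2 → ℝ)} (hP : Ctr P) (hK : Ctr K) (hS : IsCompact S)
    {c : ℝ} (hPc : ∀ x ∈ P, |x 0| ≤ c) (hKc : ∀ x ∈ K, |x 0| ≤ c) (hPe : ∃ x ∈ P, x 0 = c)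
    (hKe : ∃ x ∈ K, x 0 = c) {s : ℝ} (hs : 0 < s) (hsub : ∀ x ∈ P, ∀ y ∈ K, x + s • y ∈ S) :
    ENNReal.ofReal (1 + s) * (volume P + ENNReal.ofReal s * volume K) ≤ volume S := by
  have hne : ∀ (A : Set (Fin 2 → ℝ)), Ctr A → (∃ x ∈ A, x 0 = c) → ∀ z, |z| ≤ c →
      (sec2 A z).Nonempty := by
    rintro A hA ⟨x, hx, hxc⟩ z hz
    rcases ((abs_nonneg z).trans hz).eq_or_lt with hc | hc
    · have : z = 0 := abs_nonpos_iff.1 (hc ▸ hz)
      subst this
      refine ⟨0, show ![(0 : ℝ), 0] ∈ A from ?_⟩
      convert zero_mem hA using 1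
      simp
    · have hr : |z / c| ≤ 1 := by rw [abs_div, abs_of_pos hc]; exact (div_le_one hc).2 hz
      obtain ⟨h1, h2⟩ := abs_le.1 hr
      have := hA.convex hx (hA.neg_mem x hx) (show 0 ≤ (1 + z / c) / 2 by linarith)
        (show 0 ≤ (1 - z / c) / 2 by linarith) (by ring)
      refine ⟨z / c * x 1, show ![z, z / c * x 1] ∈ A from ?_⟩
      convert this using 1
      funext i
      fin_cases i
      · simp [hxc]; field_simp; ring
      · simp; ring
  have key : ∀ z, volume (sec2 P z) + ENNReal.ofReal s * volume (sec2 K z)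
      ≤ volume (sec2 S ((1 + s) * z)) := by
    intro z
    by_cases hz : |z| ≤ c
    · have hsm : ENNReal.ofReal s * volume (sec2 K z) = volume (s • sec2 K z) := by
        rw [Measure.addHaar_smul_of_nonneg volume hs.le]
        simp
      rw [hsm]
      refine (P047.Disproof.volume_add_compact (isCompact_sec2 hP.compact z)
        ((isCompact_sec2 hK.compact z).smul s) (hne P hP hPe z hz)
        ((hne K hK hKe z hz).smul_set)).trans (measure_mono ?_)
      rintro _ ⟨a, ha, _, ⟨b, hb, rfl⟩, rfl⟩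
      show ![(1 + s) * z, a + s • b] ∈ S
      convert hsub _ ha _ hb using 1
      funext i
      fin_cases i <;> simp [add_mul]
    · have h : ∀ A : Set (Fin 2 → ℝ), (∀ x ∈ A, |x 0| ≤ c) → sec2 A z = ∅ := fun A hA =>
        eq_empty_of_forall_notMem fun y hy => hz (by simpa using hA _ hy)
      simp [h P hPc, h K hKc]
  have hmeas : ∀ A : Set (Fin 2 → ℝ), MeasurableSet A → Measurable fun z => volume (sec2 A z) :=
    fun A hA => measurable_measure_prodMk_left
      ((MeasurableEquiv.finTwoArrow (α := ℝ)).symm.measurable hA)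
  rw [volume_eq_lintegral_sec2 hP.compact.measurableSet,
    volume_eq_lintegral_sec2 hK.compact.measurableSet,
    volume_eq_lintegral_sec2 hS.measurableSet,
    ← lintegral_const_mul' _ _ ENNReal.ofReal_ne_top,
    ← lintegral_add_left (hmeas P hP.compact.measurableSet)]
  have hs1 : (1 + s) ≠ 0 := by linarith
  have hscale : ∫⁻ z, volume (sec2 S ((1 + s) * z))
      = ENNReal.ofReal |(1 + s)⁻¹| * ∫⁻ z, volume (sec2 S z) := by
    rw [← lintegral_map (hmeas S hS.measurableSet) (measurable_const_mul (1 + s)),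
      Real.map_volume_mul_left hs1, lintegral_smul_measure, smul_eq_mul]
  refine (mul_le_mul_right (lintegral_mono key) _).trans (le_of_eq ?_)
  rw [hscale, ← mul_assoc, ← ENNReal.ofReal_mul (by linarith),
    abs_of_pos (inv_pos.2 (by linarith : (0 : ℝ) < 1 + s)), mul_inv_cancel₀ hs1,
    ENNReal.ofReal_one, one_mul]

/-- Linearity of the area for bodies with the same width. -/
theorem equal_width {P K S : Set (Fin 2 → ℝ)} (hP : Ctr P) (hK : Ctr K) (hS : IsCompact S)
    {u : Fin 2 → ℝ} (hu : u ≠ 0) {c : ℝ} (hPc : supp P u = c) (hKc : supp K u = c) {s : ℝ}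
    (hs : 0 < s) (hsub : ∀ x ∈ P, ∀ y ∈ K, x + s • y ∈ S) :
    ENNReal.ofReal (1 + s) * (volume P + ENNReal.ofReal s * volume K) ≤ volume S := by
  set T : (Fin 2 → ℝ) →ₗ[ℝ] (Fin 2 → ℝ) :=
    { toFun := fun x => ![u ⬝ᵥ x, ![-u 1, u 0] ⬝ᵥ x]
      map_add' := fun x y => by
        funext i; fin_cases i <;> simp [dotProduct_add]
      map_smul' := fun a x => by
        funext i; fin_cases i <;> simp [dotProduct_smul] }
  have hinj : Function.Injective T := by
    refine (injective_iff_map_eq_zero _).2 fun x hx => ?_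
    have h0 : u ⬝ᵥ x = 0 := congrFun hx 0
    have h1 : ![-u 1, u 0] ⬝ᵥ x = 0 := congrFun hx 1
    simp only [dotProduct, Fin.sum_univ_two, Matrix.cons_val_zero, Matrix.cons_val_one] at h0 h1
    have hn : u 0 * u 0 + u 1 * u 1 ≠ 0 := fun h => hu <| by
      obtain ⟨a, b⟩ := mul_self_add_mul_self_eq_zero.1 h
      funext i; fin_cases i <;> assumption
    funext i
    fin_cases i
    · show x 0 = 0
      exact mul_left_cancel₀ hn (by linear_combination u 0 * h0 - u 1 * h1)
    · show x 1 = 0
      exact mul_left_cancel₀ hn (by linear_combination u 1 * h0 + u 0 * h1)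
  have hTc : Continuous T := T.continuous_of_finiteDimensional
  set e := LinearEquiv.ofInjectiveEndo T hinj
  have hdet : LinearMap.det T ≠ 0 := (LinearEquiv.isUnit_det' e).ne_zero
  have hvol : ∀ A, volume (T '' A) = ENNReal.ofReal |LinearMap.det T| * volume A := fun A =>
    Measure.addHaar_image_linearMap volume T A
  have hctr : ∀ A, Ctr A → Ctr (T '' A) := fun A hA =>
    { compact := hA.compact.image hTc
      convex := hA.convex.linear_image T
      nonempty := hA.nonempty.image T
      neg_mem := fun x ⟨a, ha, he⟩ => ⟨-a, hA.neg_mem a ha, by rw [map_neg, he]⟩ }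
  have hbd : ∀ A, Ctr A → supp A u = c → ∀ x ∈ T '' A, |x 0| ≤ c := by
    rintro A hA hc _ ⟨a, ha, rfl⟩
    exact hc ▸ abs_le_supp hA ha u
  have hex : ∀ A, Ctr A → supp A u = c → ∃ x ∈ T '' A, x 0 = c := by
    intro A hA hc
    obtain ⟨a, ha, he⟩ := exists_supp hA u
    exact ⟨T a, ⟨a, ha, rfl⟩, hc ▸ he⟩
  have h := equal_width_zero (hctr P hP) (hctr K hK) (hS.image hTc) (hbd P hP hPc) (hbd K hK hKc)
    (hex P hP hPc) (hex K hK hKc) hs (by
      rintro _ ⟨a, ha, rfl⟩ _ ⟨b, hb, rfl⟩
      exact ⟨a + s • b, hsub a ha b hb, by rw [map_add, map_smul]⟩)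
  rw [hvol, hvol, hvol] at h
  have h0 : ENNReal.ofReal |LinearMap.det T| ≠ 0 := by simp [hdet]
  refine (ENNReal.mul_le_mul_iff_right h0 ENNReal.ofReal_ne_top).1 (le_trans (le_of_eq ?_) h)
  ring

variable {K L : Set (Fin 2 → ℝ)}

/-- The planar inequality for the polygon of finitely many directions. -/
theorem poly_le (hK : Ctr K) (hL : Ctr L) (hKv : volume K ≠ 0) (hLv : volume L ≠ 0) {N : ℕ}
    (u : Fin N → Fin 2 → ℝ) (hu : ∀ j, u j ≠ 0) (hN : 0 < N)
    (hbd : ∃ B : Set (Fin 2 → ℝ), IsCompact B ∧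
      ∀ g : Fin N → ℝ, ∀ r : ℝ, (∀ j, g j ≤ r * √(supp K (u j) * supp L (u j))) →
        {x | ∀ j, |u j ⬝ᵥ x| ≤ g j} ⊆ r • B) :
    volume K * volume L ≤
      volume {x | ∀ j, |u j ⬝ᵥ x| ≤ √(supp K (u j) * supp L (u j))} ^ 2 := by
  classical
  set f : Fin N → ℝ := fun j => √(supp K (u j) * supp L (u j))
  set P : Set (Fin 2 → ℝ) := {x | ∀ j, |u j ⬝ᵥ x| ≤ f j}
  obtain ⟨B, hB, hBs⟩ := hbd
  have hf : ∀ j, 0 < f j := fun j =>
    Real.sqrt_pos.2 (mul_pos (supp_pos hK hKv (hu j)) (supp_pos hL hLv (hu j)))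
  have hclosed : ∀ g : Fin N → ℝ, IsClosed {x : Fin 2 → ℝ | ∀ j, |u j ⬝ᵥ x| ≤ g j} := fun g => by
    rw [show {x : Fin 2 → ℝ | ∀ j, |u j ⬝ᵥ x| ≤ g j} = ⋂ j, {x | |u j ⬝ᵥ x| ≤ g j} by ext; simp]
    exact isClosed_iInter fun j => isClosed_le (continuous_dot _).abs continuous_const
  have hcompact : ∀ g : Fin N → ℝ, IsCompact {x : Fin 2 → ℝ | ∀ j, |u j ⬝ᵥ x| ≤ g j} := by
    intro g
    obtain ⟨r, hr⟩ := Finset.exists_le (Finset.univ.image fun j => g j / f j)
    refine (hB.smul r).of_isClosed_subset (hclosed g) (hBs g r fun j => ?_)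
    exact (div_le_iff₀ (hf j)).1 (hr _ (Finset.mem_image_of_mem _ (Finset.mem_univ j)))
  have hP : Ctr P :=
    { compact := hcompact f
      convex := fun x hx y hy a b ha hb hab j => by
        rw [dotProduct_add, dotProduct_smul, dotProduct_smul, smul_eq_mul, smul_eq_mul]
        refine (abs_add_le _ _).trans ?_
        rw [abs_mul, abs_mul, abs_of_nonneg ha, abs_of_nonneg hb]
        calc a * |u j ⬝ᵥ x| + b * |u j ⬝ᵥ y| ≤ a * f j + b * f j :=
              add_le_add (mul_le_mul_of_nonneg_left (hx j) ha)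
                (mul_le_mul_of_nonneg_left (hy j) hb)
          _ = f j := by rw [← add_mul, hab, one_mul]
      nonempty := ⟨0, fun j => by simpa using (hf j).le⟩
      neg_mem := fun x hx j => by
        rw [dotProduct_neg, abs_neg]
        exact hx j }
  have hfin : ∀ {A : Set (Fin 2 → ℝ)}, IsCompact A → volume A ≠ ⊤ := fun h => h.measure_lt_top.ne
  -- the area of the polygon is positive
  have hPpos : 0 < (volume P).toReal := by
    refine ENNReal.toReal_pos (fun h => ?_) (hfin hP.compact)
    have hO : IsOpen {x : Fin 2 → ℝ | ∀ j, |u j ⬝ᵥ x| < f j} := by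
      rw [show {x : Fin 2 → ℝ | ∀ j, |u j ⬝ᵥ x| < f j} = ⋂ j, {x | |u j ⬝ᵥ x| < f j} by ext; simp]
      exact isOpen_iInter_of_finite fun j => isOpen_lt (continuous_dot _).abs continuous_const
    exact (hO.measure_pos volume ⟨0, fun j => by simpa using hf j⟩).ne'
      (measure_mono_null (fun x hx j => (hx j).le) h)
  -- the cones
  set r : Fin N → (Fin 2 → ℝ) → ℝ := fun j x => |u j ⬝ᵥ x| / f j
  set C : Fin N → Set (Fin 2 → ℝ) := fun j => {x | (∀ i, r i x ≤ r j x) ∧ ∀ i, i < j → r i x < r j x}
  have hrc : ∀ j, Continuous (r j) := fun j => (continuous_dot _).abs.div_const _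
  have hCm : ∀ j, MeasurableSet (P ∩ C j) := fun j => by
    refine hP.compact.measurableSet.inter ?_
    show MeasurableSet
      ({x | ∀ i, r i x ≤ r j x} ∩ {x | ∀ i, i < j → r i x < r j x})
    refine MeasurableSet.inter ?_ ?_
    · rw [show {x | ∀ i, r i x ≤ r j x} = ⋂ i, {x | r i x ≤ r j x} by ext; simp]
      exact MeasurableSet.iInter fun i => measurableSet_le (hrc i).measurable (hrc j).measurable
    · rw [show {x | ∀ i, i < j → r i x < r j x} = ⋂ i, ⋂ (_ : i < j), {x | r i x < r j x} by
        ext; simp]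
      exact MeasurableSet.iInter fun i => MeasurableSet.iInter fun _ =>
        measurableSet_lt (hrc i).measurable (hrc j).measurable
  have hcover : ∀ x, ∃ j, x ∈ C j := by
    intro x
    obtain ⟨j₀, -, hj₀⟩ := Finset.exists_max_image (Finset.univ : Finset (Fin N)) (fun j => r j x)
      ⟨⟨0, hN⟩, Finset.mem_univ _⟩
    set M := Finset.univ.filter fun j => r j x = r j₀ x
    have hM : M.Nonempty := ⟨j₀, by simp [M]⟩
    have hmem : r (M.min' hM) x = r j₀ x := (Finset.mem_filter.1 (M.min'_mem hM)).2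
    refine ⟨M.min' hM, fun i => hmem ▸ hj₀ i (Finset.mem_univ i), fun i hi => ?_⟩
    refine lt_of_le_of_ne (hmem ▸ hj₀ i (Finset.mem_univ i)) fun he => ?_
    exact (M.min'_le i (by simp [M, he, hmem])).not_gt hi
  have hdisj : Pairwise (Function.onFun Disjoint fun j => P ∩ C j) := by
    intro i j hij
    refine disjoint_left.2 fun x hi hj => ?_
    rcases lt_or_gt_of_ne hij with h | h
    · exact (hj.2.2 i h).not_ge (hi.2.1 j)
    · exact (hi.2.2 j h).not_ge (hj.2.1 i)
  set A : Fin N → ℝ := fun j => (volume (P ∩ C j)).toReal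
  have hAfin : ∀ j, volume (P ∩ C j) ≠ ⊤ := fun j =>
    measure_ne_top_of_subset inter_subset_left (hfin hP.compact)
  have hAsum : ∑ j, A j = (volume P).toReal := by
    rw [← ENNReal.toReal_sum fun j _ => hAfin j, ← tsum_fintype (L := .unconditional _),
      ← measure_iUnion hdisj hCm]
    congr 2
    ext x
    simp only [mem_iUnion, mem_inter_iff]
    constructor
    · rintro ⟨_, h, _⟩
      exact h
    · intro h
      obtain ⟨j, hj⟩ := hcover x
      exact ⟨j, h, hj⟩
  have hA0 : ∀ j, 0 ≤ A j := fun j => ENNReal.toReal_nonneg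
  -- the quadratic inequality
  have hkey : ∀ E : Set (Fin 2 → ℝ), Ctr E → volume E ≠ 0 → ∀ k, 0 < A k →
      (volume P).toReal * (supp E (u k) / f k) ^ 2 + (volume E).toReal
        ≤ 2 * (∑ j, A j * (supp E (u j) / f j)) * (supp E (u k) / f k) := by
    intro E hE hEv k hk
    set τ : Fin N → ℝ := fun j => supp E (u j) / f j
    have hτ0 : ∀ j, 0 < τ j := fun j => div_pos (supp_pos hE hEv (hu j)) (hf j)
    have hsP : supp P (u k) = f k := by
      refine le_antisymm (supp_le hP fun x hx => (le_abs_self _).trans (hx k)) ?_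
      obtain ⟨x, hxP, hxC, hx0⟩ : ∃ x, x ∈ P ∧ x ∈ C k ∧ x ≠ 0 := by
        by_contra! h
        have : volume (P ∩ C k) = 0 :=
          measure_mono_null (fun x hx => mem_singleton_iff.2 (h x hx.1 hx.2)) (measure_singleton 0)
        simp [A, this] at hk
      have hpos : 0 < r k x := by
        by_contra! h
        have hz : ∀ j, u j ⬝ᵥ x = 0 := fun j => by
          have h1 : r j x ≤ 0 := (hxC.1 j).trans h
          have := (div_le_iff₀ (hf j)).1 h1
          rw [zero_mul] at this
          exact abs_nonpos_iff.1 this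
        refine hx0 ?_
        have hB0 : x ∈ (0 : ℝ) • B := hBs (fun _ => 0) 0 (fun j => by simp) fun j => by simp [hz j]
        obtain ⟨b, -, rfl⟩ := hB0
        exact zero_smul _ b
      set y := (r k x)⁻¹ • x
      have hy : ∀ j, |u j ⬝ᵥ y| = (r k x)⁻¹ * (r j x * f j) := fun j => by
        rw [dotProduct_smul, smul_eq_mul, abs_mul, abs_of_pos (inv_pos.2 hpos)]
        simp only [r]
        rw [div_mul_cancel₀ _ (hf j).ne']
      have hyP : y ∈ P := fun j => by
        rw [hy]
        calc (r k x)⁻¹ * (r j x * f j) ≤ (r k x)⁻¹ * (r k x * f j) := by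
              gcongr
              exact hxC.1 j
          _ = f j := by rw [← mul_assoc, inv_mul_cancel₀ hpos.ne', one_mul]
      have h := abs_le_supp hP hyP (u k)
      rwa [hy, ← mul_assoc, inv_mul_cancel₀ hpos.ne', one_mul] at h
    set E' := (τ k)⁻¹ • E
    have hE' : Ctr E' :=
      { compact := hE.compact.smul _
        convex := hE.convex.smul _
        nonempty := hE.nonempty.smul_set
        neg_mem := by
          rintro _ ⟨a, ha, rfl⟩
          exact ⟨-a, hE.neg_mem a ha, smul_neg _ _⟩ }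
    have hdotE : ∀ j, ∀ y ∈ E', |u j ⬝ᵥ y| ≤ (τ k)⁻¹ * supp E (u j) := by
      rintro j _ ⟨a, ha, rfl⟩
      rw [dotProduct_smul, smul_eq_mul, abs_mul, abs_of_pos (inv_pos.2 (hτ0 k))]
      exact mul_le_mul_of_nonneg_left (abs_le_supp hE ha _) (inv_pos.2 (hτ0 k)).le
    have hkf : (τ k)⁻¹ * supp E (u k) = f k := by
      simp only [τ]
      field_simp [(hf k).ne', (supp_pos hE hEv (hu k)).ne']
    have hsE : supp E' (u k) = f k := by
      refine le_antisymm (supp_le hE' fun y hy => (le_abs_self _).trans (hkf ▸ hdotE k y hy)) ?_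
      obtain ⟨a, ha, hae⟩ := exists_supp hE (u k)
      have := le_supp hE' (smul_mem_smul_set ha : (τ k)⁻¹ • a ∈ E') (u k)
      rwa [dotProduct_smul, hae, smul_eq_mul, hkf] at this
    set a := (volume E).toReal * ((τ k)⁻¹) ^ 2
    set V := (∑ j, A j * τ j) / τ k
    set Q := (∑ j, A j * τ j ^ 2) / τ k ^ 2
    have hineq : ∀ s : ℝ, 0 < s →
        (1 + s) * ((volume P).toReal + s * a) ≤ (volume P).toReal + 2 * s * V + s ^ 2 * Q := by
      intro s hs
      set g : Fin N → ℝ := fun j => (1 + s * (τ j / τ k)) * f j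
      set S : Set (Fin 2 → ℝ) := {x | ∀ j, |u j ⬝ᵥ x| ≤ g j}
      have h1 := equal_width hP hE' (hcompact g) (hu k) hsP hsE hs (fun x hx y hy j => by
        rw [dotProduct_add, dotProduct_smul, smul_eq_mul]
        refine (abs_add_le _ _).trans ?_
        rw [abs_mul, abs_of_pos hs]
        have hfj := hf j
        have e : s * ((τ k)⁻¹ * supp E (u j)) = s * (τ j / τ k) * f j := by
          simp only [τ]
          field_simp [hfj.ne']
        have := mul_le_mul_of_nonneg_left (hdotE j y hy) hs.le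
        have := hx j
        show _ ≤ (1 + s * (τ j / τ k)) * f j
        rw [add_mul, one_mul, ← e]
        linarith)
      have hc0 : ∀ j, 0 < 1 + s * (τ j / τ k) := fun j =>
        add_pos one_pos (mul_pos hs (div_pos (hτ0 j) (hτ0 k)))
      have h2 : volume S ≤ ∑ j, ENNReal.ofReal ((1 + s * (τ j / τ k)) ^ 2) * volume (P ∩ C j) := by
        have hsub : S ⊆ ⋃ j, (1 + s * (τ j / τ k)) • (P ∩ C j) := by
          intro x hx
          obtain ⟨j, hj⟩ := hcover x
          refine mem_iUnion.2 ⟨j, (mem_smul_set_iff_inv_smul_mem₀ (hc0 j).ne' _ _).2 ?_⟩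
          set c := (1 + s * (τ j / τ k))⁻¹
          have hc : 0 < c := inv_pos.2 (hc0 j)
          have hr : ∀ i, r i (c • x) = c * r i x := fun i => by
            simp only [r, dotProduct_smul, smul_eq_mul, abs_mul, abs_of_pos hc, mul_div_assoc]
          refine ⟨fun i => ?_, fun i => ?_, fun i hi => ?_⟩
          · have h3 : r i (c • x) ≤ 1 := by
              rw [hr]
              refine (mul_le_mul_of_nonneg_left (hj.1 i) hc.le).trans ?_
              refine (inv_mul_le_one₀ (hc0 j)).2 ((div_le_iff₀ (hf j)).2 (hx j))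
            exact (div_le_one (hf i)).1 h3
          · rw [hr, hr]; exact mul_le_mul_of_nonneg_left (hj.1 i) hc.le
          · rw [hr, hr]; exact mul_lt_mul_of_pos_left (hj.2 i hi) hc
        refine (measure_mono hsub).trans ((measure_iUnion_fintype_le _ _).trans (le_of_eq ?_))
        refine Finset.sum_congr rfl fun j _ => ?_
        rw [Measure.addHaar_smul_of_nonneg volume (hc0 j).le]
        simp
      have h3 := ENNReal.toReal_mono
        (ENNReal.sum_ne_top.2 fun j _ => ENNReal.mul_ne_top ENNReal.ofReal_ne_top (hAfin j))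
        (h1.trans h2)
      rw [ENNReal.toReal_mul, ENNReal.toReal_ofReal (by linarith), ENNReal.toReal_add
          (hfin hP.compact) (ENNReal.mul_ne_top ENNReal.ofReal_ne_top (hfin hE'.compact)),
        ENNReal.toReal_mul, ENNReal.toReal_ofReal hs.le,
        ENNReal.toReal_sum fun j _ => ENNReal.mul_ne_top ENNReal.ofReal_ne_top (hAfin j)] at h3
      have hvE : (volume E').toReal = a := by
        simp only [E', a]
        rw [Measure.addHaar_smul_of_nonneg volume (inv_pos.2 (hτ0 k)).le, ENNReal.toReal_mul,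
          ENNReal.toReal_ofReal (pow_nonneg (inv_pos.2 (hτ0 k)).le _), Module.finrank_fin_fun]
        ring
      rw [hvE] at h3
      refine h3.trans (le_of_eq ?_)
      simp only [ENNReal.toReal_mul, ENNReal.toReal_ofReal (sq_nonneg _), ← hAsum, V, Q,
        Finset.sum_div, Finset.mul_sum, ← Finset.sum_add_distrib]
      refine Finset.sum_congr rfl fun j _ => ?_
      simp only [A]
      ring
    have hlim : (volume P).toReal + a ≤ 2 * V := by
      by_contra! h
      set D := (volume P).toReal + a - 2 * V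
      set M := |Q - a| + 1
      have hM : 0 < M := by positivity
      have := hineq (D / M) (div_pos (by linarith) hM)
      have h1 : D ≤ D / M * (Q - a) := by
        have hs' : 0 < D / M := div_pos (by linarith) hM
        nlinarith
      have h2 : D / M * (Q - a) < D := by
        rw [div_mul_eq_mul_div, div_lt_iff₀ hM]
        have := le_abs_self (Q - a)
        have : 0 < D := by linarith
        nlinarith
      linarith
    show (volume P).toReal * τ k ^ 2 + (volume E).toReal ≤ 2 * (∑ j, A j * τ j) * τ k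
    have := mul_le_mul_of_nonneg_left hlim (sq_nonneg (τ k))
    have h0 := (hτ0 k).ne'
    rw [mul_add, show τ k ^ 2 * a = (volume E).toReal by simp only [a]; field_simp,
      show τ k ^ 2 * (2 * V) = 2 * (∑ j, A j * τ j) * τ k by simp only [V]; field_simp] at this
    linarith
  -- the chord bound for both bodies
  set p := (volume P).toReal
  have hlog : ∀ E : Set (Fin 2 → ℝ), Ctr E → volume E ≠ 0 →
      Real.log ((volume E).toReal / p) / 2 ≤ ∑ j, A j / p * Real.log (supp E (u j) / f j) := by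
    intro E hE hEv
    have hw1 : ∑ j, A j / p = 1 := by rw [← Finset.sum_div, hAsum, div_self hPpos.ne']
    refine chord _ _ (fun j => div_nonneg (hA0 j) hPpos.le) hw1
      (m := (∑ j, A j * (supp E (u j) / f j)) / p) ?_
      (div_pos (ENNReal.toReal_pos hEv (hfin hE.compact)) hPpos) fun k hk => ?_
    · rw [Finset.sum_div]
      exact Finset.sum_congr rfl fun j _ => by ring
    · refine ⟨div_pos (supp_pos hE hEv (hu k)) (hf k), ?_⟩
      have := hkey E hE hEv k ((div_pos_iff_of_pos_right hPpos).1 hk)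
      set t := supp E (u k) / f k
      set W := ∑ j, A j * (supp E (u j) / f j)
      rw [show t ^ 2 - 2 * (W / p) * t + (volume E).toReal / p
        = (p * t ^ 2 + (volume E).toReal - 2 * W * t) / p by field_simp; ring]
      exact div_nonpos_iff.2 (Or.inr ⟨by linarith, hPpos.le⟩)
  have hsum : ∑ j, A j / p * Real.log (supp K (u j) / f j)
      + ∑ j, A j / p * Real.log (supp L (u j) / f j) = 0 := by
    rw [← Finset.sum_add_distrib]
    refine Finset.sum_eq_zero fun j _ => ?_
    have hk := supp_pos hK hKv (hu j)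
    have hl := supp_pos hL hLv (hu j)
    rw [← mul_add, ← Real.log_mul (div_pos hk (hf j)).ne' (div_pos hl (hf j)).ne',
      div_mul_div_comm, Real.mul_self_sqrt (mul_pos hk hl).le, div_self (mul_pos hk hl).ne',
      Real.log_one, mul_zero]
  have h1 := hlog K hK hKv
  have h2 := hlog L hL hLv
  have hk0 := ENNReal.toReal_pos hKv (hfin hK.compact)
  have hl0 := ENNReal.toReal_pos hLv (hfin hL.compact)
  have h3 : Real.log ((volume K).toReal / p * ((volume L).toReal / p)) ≤ 0 := by
    rw [Real.log_mul (div_pos hk0 hPpos).ne' (div_pos hl0 hPpos).ne']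
    linarith
  have h4 : (volume K).toReal * (volume L).toReal ≤ p ^ 2 := by
    have := (Real.log_nonpos_iff (mul_pos (div_pos hk0 hPpos) (div_pos hl0 hPpos)).le).1 h3
    rw [div_mul_div_comm, div_le_one (mul_pos hPpos hPpos)] at this
    nlinarith
  rw [← ENNReal.toReal_mul, ← ENNReal.toReal_pow] at h4
  exact (ENNReal.toReal_le_toReal (ENNReal.mul_ne_top (hfin hK.compact) (hfin hL.compact))
    (ENNReal.pow_ne_top (hfin hP.compact))).1 h4

/-- The planar logarithmic Brunn–Minkowski inequality at the midpoint. -/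
theorem planar (hK : Ctr K) (hL : Ctr L) : volume K * volume L ≤ volume (half K L) ^ 2 := by
  rcases eq_or_ne (volume K) 0 with hKv | hKv
  · simp [hKv]
  rcases eq_or_ne (volume L) 0 with hLv | hLv
  · simp [hLv]
  set d := TopologicalSpace.denseSeq (Fin 2 → ℝ)
  set d' : ℕ → Fin 2 → ℝ := fun k => if d k = 0 then Pi.single 0 1 else d k
  set e : ℕ → Fin 2 → ℝ := fun k => match k with
    | 0 => Pi.single 0 1
    | 1 => Pi.single 1 1
    | k + 2 => d' k
  have hs : ∀ i : Fin 2, (Pi.single i 1 : Fin 2 → ℝ) ≠ 0 := fun i h => by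
    simpa using congrFun h i
  have he : ∀ k, e k ≠ 0 := fun k => by
    match k with
    | 0 => exact hs 0
    | 1 => exact hs 1
    | k + 2 =>
      show d' k ≠ 0
      simp only [d']
      split_ifs with h
      exacts [hs 0, h]
  set F : (Fin 2 → ℝ) → ℝ := fun v => √(supp K v * supp L v)
  set Q : ℕ → Set (Fin 2 → ℝ) := fun N =>
    {x | ∀ j : Fin (N + 2), |e j ⬝ᵥ x| ≤ F (e j)}
  have hQsub : ∀ N, ∀ g : Fin (N + 2) → ℝ, ∀ r : ℝ, (∀ j : Fin (N + 2), g j ≤ r * F (e j)) →
      {x : Fin 2 → ℝ | ∀ j : Fin (N + 2), |e j ⬝ᵥ x| ≤ g j} ⊆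
        r • Set.univ.pi fun i : Fin 2 => Icc (-F (Pi.single i 1)) (F (Pi.single i 1)) := by
    intro N g r hg x hx
    have h0 := (hx ⟨0, by omega⟩).trans (hg _)
    have h1 := (hx ⟨1, by omega⟩).trans (hg _)
    simp only [e, single_dotProduct, one_mul] at h0 h1
    have hx' : ∀ i, |x i| ≤ r * F (Pi.single i 1) := fun i => by fin_cases i <;> assumption
    have hF0 : ∀ i, 0 < F (Pi.single i 1) := fun i =>
      Real.sqrt_pos.2 (mul_pos (supp_pos hK hKv (hs i)) (supp_pos hL hLv (hs i)))
    have hr0 : 0 ≤ r := nonneg_of_mul_nonneg_left ((abs_nonneg _).trans (hx' 0)) (hF0 0)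
    rcases hr0.eq_or_lt with rfl | hr
    · refine ⟨0, fun i _ => ⟨by simpa using (hF0 i).le, (hF0 i).le⟩, ?_⟩
      funext i
      have := hx' i
      simp only [zero_mul, abs_nonpos_iff] at this
      simp [this]
    · refine ⟨r⁻¹ • x, fun i _ => abs_le.1 ?_, smul_inv_smul₀ hr.ne' x⟩
      rw [Pi.smul_apply, smul_eq_mul, abs_mul, abs_of_pos (inv_pos.2 hr), inv_mul_le_iff₀ hr]
      exact hx' i
  have hQc : ∀ N, IsCompact (Q N) := fun N => by
    refine ((isCompact_univ_pi fun i : Fin 2 => isCompact_Icc).smul (1 : ℝ)).of_isClosed_subset ?_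
      (hQsub N _ 1 fun j => (one_mul _).ge)
    show IsClosed {x : Fin 2 → ℝ | ∀ j : Fin (N + 2), |e j ⬝ᵥ x| ≤ F (e j)}
    rw [show {x : Fin 2 → ℝ | ∀ j : Fin (N + 2), |e j ⬝ᵥ x| ≤ F (e j)}
      = ⋂ j : Fin (N + 2), {x | |e j ⬝ᵥ x| ≤ F (e j)} by ext; simp]
    exact isClosed_iInter fun j => isClosed_le (continuous_dot _).abs continuous_const
  have hle : ∀ N, volume K * volume L ≤ volume (Q N) ^ 2 := fun N =>
    poly_le hK hL hKv hLv (fun j : Fin (N + 2) => e j) (fun j => he j) (by omega)
      ⟨_, isCompact_univ_pi fun i : Fin 2 => isCompact_Icc, hQsub N⟩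
  have hanti : Antitone Q := fun M N hMN x hx j => hx ⟨j, by omega⟩
  have hinter : ⋂ N, Q N ⊆ half K L := by
    intro x hx
    rw [mem_iInter] at hx
    have hcl : IsClosed {v : Fin 2 → ℝ | v ⬝ᵥ x ≤ F v} :=
      isClosed_le (continuous_finsetSum _ fun i _ => (continuous_apply i).mul continuous_const)
        ((continuous_supp hK).mul (continuous_supp hL)).sqrt
    intro v
    have hv : v ∈ closure (range d) :=
      TopologicalSpace.denseRange_denseSeq (Fin 2 → ℝ) v
    refine hcl.closure_subset_iff.2 ?_ hv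
    rintro _ ⟨k, rfl⟩
    by_cases hk : d k = 0
    · show d k ⬝ᵥ x ≤ F (d k)
      rw [hk, zero_dotProduct]
      exact Real.sqrt_nonneg _
    · have := hx (k + 1) ⟨k + 2, by omega⟩
      simp only [e, d', if_neg hk] at this
      exact (le_abs_self _).trans this
  have hlim := tendsto_measure_iInter_atTop (μ := volume)
    (fun N => (hQc N).measurableSet.nullMeasurableSet) hanti ⟨0, (hQc 0).measure_lt_top.ne⟩
  refine le_trans ?_ (pow_le_pow_left' (measure_mono hinter) 2)
  exact ge_of_tendsto (((ENNReal.continuous_pow 2).tendsto _).comp hlim)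
    (Filter.Eventually.of_forall hle)

end

end Vale.Agent.P227
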