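import Mathlib

/-!
# P227: the notions used in the statement
-/

namespace Vale.Agent.P227

open MeasureTheory Set
open scoped RealInnerProductSpace

noncomputable section

/-- Euclidean space. -/
abbrev Space (n : ℕ) : Type := EuclideanSpace ℝ (Fin n)

/-- An origin-symmetric convex body. -/
structure SymmBody {n : ℕ} (K : Set (Space n)) : Prop where
  compact : IsCompact K
  convex : Convex ℝ K
  interior_nonempty : (interior K).Nonempty
  neg_mem : ∀ x ∈ K, -x ∈ K

/-- The support function. -/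
def supportFn {n : ℕ} (K : Set (Space n)) (u : Space n) : ℝ :=
  sSup ((fun y => ⟪u, y⟫) '' K)

/-- The logarithmic combination `(1 - l) K +₀ l L`: the Wulff body of the geometric mean of the
support functions over unit vectors. -/
def logSum {n : ℕ} (l : ℝ) (K L : Set (Space n)) :
    Set (Space n) :=
  {x | ∀ u : Space n, ‖u‖ = 1 →
    ⟪u, x⟫ ≤ supportFn K u ^ (1 - l) * supportFn L u ^ l}

/-- The logarithmic Brunn–Minkowski inequality for `K`, `L` and `l`. -/
def LogBMAt {n : ℕ} (l : ℝ) (K L : Set (Space n)) : Prop :=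
  volume K ^ (1 - l) * volume L ^ l ≤ volume (logSum l K L)

/-- Invariance under the reflections `x ↦ x - 2 c_i(x) b_i`, `i ∈ S`, of a basis `b`. -/
def ReflInv {n : ℕ} (b : Module.Basis (Fin n) ℝ (Space n)) (S : Finset (Fin n))
    (K : Set (Space n)) : Prop :=
  ∀ i ∈ S, ∀ x ∈ K, x - (2 * b.repr x i) • b i ∈ K

/-- A nontrivial linear symmetry of `K`: a linear map other than `±1` carrying `K` onto itself. -/
def HasSymm {n : ℕ} (g : Space n →ₗ[ℝ] Space n) (K : Set (Space n)) : Prop :=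
  g ≠ LinearMap.id ∧ g ≠ -LinearMap.id ∧ g '' K = K

/-- A symmetry of `K` fixing `b i` and the coordinate `i` for `i ∈ S`, which is neither `1` nor the
map `x ↦ -x + 2 ∑_{i ∈ S} c_i(x) b i` acting as `-1` on the span of the other basis vectors. -/
def CompSymm {n : ℕ} (b : Module.Basis (Fin n) ℝ (Space n)) (S : Finset (Fin n))
    (g : Space n →ₗ[ℝ] Space n) (K : Set (Space n)) : Prop :=
  g '' K = K ∧ (∀ i ∈ S, g (b i) = b i ∧ ∀ x, b.repr (g x) i = b.repr x i) ∧
    (∃ x, g x ≠ x) ∧ ∃ x, g x ≠ -x + ∑ i ∈ S, (2 * b.repr x i) • b i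

/-- Invariance under the quarter turns `x ↦ x - (c_i + c_j) b_i + (c_i - c_j) b_j` of the disjoint
pairs `(i, j) = (e (k, 0), e (k, 1))` of a basis `b`. -/
def TurnsInv {n q : ℕ} (b : Module.Basis (Fin n) ℝ (Space n)) (e : Fin q × Fin 2 ↪ Fin n)
    (K : Set (Space n)) : Prop :=
  ∀ k, ∀ x ∈ K, x - (b.repr x (e (k, 0)) + b.repr x (e (k, 1))) • b (e (k, 0))
    + (b.repr x (e (k, 0)) - b.repr x (e (k, 1))) • b (e (k, 1)) ∈ K

end

end Vale.Agent.P227
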