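import Vale.Agent.P227.Planar

/-!
# P227: one reflection removes one dimension

The section over `√(z₀ z₁)` of the midpoint contains the midpoint of the sections over `z₀` and
`z₁`, and Prékopa–Leindler in `log z` adds up the sections.
-/

namespace Vale.Agent.P227

open MeasureTheory Set Matrix Function
open scoped ENNReal

noncomputable section

variable {n : ℕ}

/-- The section over a value of the coordinate `p`. -/
def sec (p : Fin (n + 1)) (K : Set (Fin (n + 1) → ℝ)) (z : ℝ) : Set (Fin n → ℝ) :=
  {y | p.insertNth z y ∈ K}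

theorem dot_insertNth (p : Fin (n + 1)) (t z : ℝ) (v y : Fin n → ℝ) :
    (p.insertNth t v : Fin (n + 1) → ℝ) ⬝ᵥ p.insertNth z y = t * z + v ⬝ᵥ y := by
  simp only [dotProduct]
  rw [Fin.sum_univ_succAbove _ p]
  simp

theorem flip_insertNth (p : Fin (n + 1)) (z : ℝ) (y : Fin n → ℝ) :
    flip p (p.insertNth z y : Fin (n + 1) → ℝ) = p.insertNth (-z) y := by
  funext i
  refine p.succAboveCases ?_ (fun j => ?_) i
  · simp [flip]
  · simp [flip, Fin.succAbove_ne p j]

theorem flip_succAbove (p : Fin (n + 1)) (j : Fin n) (z : ℝ) (y : Fin n → ℝ) :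
    flip (p.succAbove j) (p.insertNth z y : Fin (n + 1) → ℝ) = p.insertNth z (flip j y) := by
  funext i
  refine p.succAboveCases ?_ (fun k => ?_) i
  · simp [flip, (Fin.succAbove_ne p j).symm]
  · rcases eq_or_ne k j with rfl | h
    · simp [flip]
    · simp [flip, h, Fin.succAbove_right_injective.ne h]

theorem continuous_insertNth_right (p : Fin (n + 1)) (z : ℝ) :
    Continuous fun y : Fin n → ℝ => (p.insertNth z y : Fin (n + 1) → ℝ) :=
  continuous_pi fun i => by
    refine p.succAboveCases ?_ (fun j => ?_) i
    · simp only [Fin.insertNth_apply_same]; exact continuous_const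
    · simp only [Fin.insertNth_apply_succAbove]; exact continuous_apply j

theorem ctr_sec {p : Fin (n + 1)} {K : Set (Fin (n + 1) → ℝ)} (hK : Ctr K) (hp : FlipInv p K)
    {z : ℝ} (hne : (sec p K z).Nonempty) : Ctr (sec p K z) where
  compact := by
    refine ((hK.compact.image (f := fun x => fun j => x (p.succAbove j))
      (continuous_pi fun j => continuous_apply _))).of_isClosed_subset
      (hK.compact.isClosed.preimage (continuous_insertNth_right p z)) fun y hy => ⟨_, hy, ?_⟩
    funext j
    simp
  convex := fun y hy w hw a b ha hb hab => by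
    have h := hK.convex hy hw ha hb hab
    show (p.insertNth z (a • y + b • w) : Fin (n + 1) → ℝ) ∈ K
    convert h using 1
    funext i
    refine p.succAboveCases ?_ (fun j => ?_) i
    · simp [← add_mul, hab]
    · simp
  nonempty := hne
  neg_mem := fun y hy => by
    have h := hK.neg_mem _ (hp _ hy)
    rw [flip_insertNth] at h
    show (p.insertNth z (-y) : Fin (n + 1) → ℝ) ∈ K
    convert h using 1
    funext i
    refine p.succAboveCases ?_ (fun j => ?_) i <;> simp

theorem flipInv_sec {p : Fin (n + 1)} {j : Fin n} {K : Set (Fin (n + 1) → ℝ)}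
    (h : FlipInv (p.succAbove j) K) (z : ℝ) : FlipInv j (sec p K z) := fun y hy => by
  show (p.insertNth z (flip j y) : Fin (n + 1) → ℝ) ∈ K
  rw [← flip_succAbove]
  exact h _ hy

theorem supp_sec_add_le {p : Fin (n + 1)} {K : Set (Fin (n + 1) → ℝ)} (hK : Ctr K)
    (hp : FlipInv p K) {z : ℝ} (hne : (sec p K z).Nonempty) (t : ℝ) (v : Fin n → ℝ) :
    supp (sec p K z) v + |t| * z ≤ supp K (p.insertNth t v) := by
  obtain ⟨y, hy, he⟩ := exists_supp (ctr_sec hK hp hne) v
  rcases le_total 0 t with ht | ht
  · have := le_supp hK hy (p.insertNth t v)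
    rw [dot_insertNth] at this
    rw [abs_of_nonneg ht, ← he]
    linarith
  · have := le_supp hK (hp _ hy) (p.insertNth t v)
    rw [flip_insertNth, dot_insertNth] at this
    rw [abs_of_nonpos ht, ← he]
    linarith

theorem sec_half {p : Fin (n + 1)} {K L : Set (Fin (n + 1) → ℝ)} (hK : Ctr K) (hL : Ctr L)
    (hpK : FlipInv p K) (hpL : FlipInv p L) {z w : ℝ} (hz : 0 ≤ z) (hw : 0 ≤ w)
    (hzK : (sec p K z).Nonempty) (hwL : (sec p L w).Nonempty) :
    half (sec p K z) (sec p L w) ⊆ sec p (half K L) (√(z * w)) := by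
  intro y hy u
  have hu : u = p.insertNth (u p) (p.removeNth u) := (Fin.insertNth_self_removeNth p u).symm
  rw [hu, dot_insertNth]
  set t := u p
  set v := p.removeNth u
  have ha := supp_nonneg (ctr_sec hK hpK hzK) v
  have hb := supp_nonneg (ctr_sec hL hpL hwL) v
  set a := supp (sec p K z) v
  set b := supp (sec p L w) v
  have h1 := supp_sec_add_le hK hpK hzK t v
  have h2 := supp_sec_add_le hL hpL hwL t v
  have hA : 0 ≤ a + |t| * z := by positivity
  have hB : 0 ≤ b + |t| * w := by positivity
  calc t * √(z * w) + v ⬝ᵥ y ≤ |t| * √(z * w) + √(a * b) :=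
        add_le_add (mul_le_mul_of_nonneg_right (le_abs_self t) (Real.sqrt_nonneg _)) (hy v)
    _ ≤ √((a + |t| * z) * (b + |t| * w)) := by
        refine Real.le_sqrt_of_sq_le ?_
        rw [Real.sqrt_mul ha, Real.sqrt_mul hz]
        have e : (a + |t| * z) * (b + |t| * w) - (|t| * (√z * √w) + √a * √b) ^ 2
            = |t| * (√z * √b - √w * √a) ^ 2 := by
          have e1 := Real.sq_sqrt ha
          have e2 := Real.sq_sqrt hb
          have e3 := Real.sq_sqrt hz
          have e4 := Real.sq_sqrt hw
          linear_combination (-(b + |t| * √w ^ 2)) * e1 + (-(√a ^ 2 + |t| * √z ^ 2)) * e2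
            + (-(|t| * b + |t| ^ 2 * w)) * e3 + (-(|t| * a + |t| ^ 2 * √z ^ 2)) * e4
        nlinarith [mul_nonneg (abs_nonneg t) (sq_nonneg (√z * √b - √w * √a))]
    _ ≤ _ := Real.sqrt_le_sqrt (mul_le_mul h1 h2 hB (supp_nonneg hK _))

theorem measurable_sec_volume (p : Fin (n + 1)) {K : Set (Fin (n + 1) → ℝ)}
    (hK : MeasurableSet K) : Measurable fun z => volume (sec p K z) :=
  measurable_measure_prodMk_left
    ((MeasurableEquiv.piFinSuccAbove (fun _ => ℝ) p).symm.measurable hK)

theorem volume_eq_lintegral_sec (p : Fin (n + 1)) {K : Set (Fin (n + 1) → ℝ)}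
    (hK : MeasurableSet K) : volume K = ∫⁻ z, volume (sec p K z) := by
  have mp := (volume_preserving_piFinSuccAbove (fun _ : Fin (n + 1) => ℝ) p).symm
  rw [← mp.measure_preimage hK.nullMeasurableSet, Measure.volume_eq_prod,
    Measure.prod_apply (mp.measurable hK)]
  rfl

/-- The volume of a body with a reflection, through `z = exp s`. -/
theorem volume_eq_exp (p : Fin (n + 1)) {K : Set (Fin (n + 1) → ℝ)} (hK : Ctr K)
    (hp : FlipInv p K) :
    volume K = 2 * ∫⁻ s, ENNReal.ofReal (Real.exp s) * volume (sec p K (Real.exp s)) := by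
  set F := fun z => volume (sec p K z)
  have heven : ∀ z, F (-z) = F z := by
    intro z
    show volume (sec p K (-z)) = volume (sec p K z)
    congr 1
    ext y
    show (p.insertNth (-z) y : Fin (n + 1) → ℝ) ∈ K ↔ p.insertNth z y ∈ K
    constructor <;> intro h <;> have := hp _ h <;> rw [flip_insertNth] at this
    · rwa [neg_neg] at this
    · exact this
  have hneg : ∫⁻ z in Iic (0 : ℝ), F z = ∫⁻ z in Ioi (0 : ℝ), F z := by
    rw [setLIntegral_congr Iio_ae_eq_Iic.symm,
      ← (Measure.measurePreserving_neg (volume : Measure ℝ)).setLIntegral_comp_preimage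
        measurableSet_Iio (measurable_sec_volume p hK.compact.measurableSet),
      show (Neg.neg : ℝ → ℝ) ⁻¹' Iio 0 = Ioi 0 by ext z; simp]
    exact lintegral_congr fun z => heven z
  have hexp : ∫⁻ z in Ioi (0 : ℝ), F z
      = ∫⁻ s, ENNReal.ofReal (Real.exp s) * F (Real.exp s) := by
    rw [← Real.range_exp, ← image_univ,
      lintegral_image_eq_lintegral_abs_deriv_mul MeasurableSet.univ
        (fun x _ => (Real.hasDerivAt_exp x).hasDerivWithinAt) Real.exp_injective.injOn,
      Measure.restrict_univ]
    simp [abs_of_pos (Real.exp_pos _)]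
  rw [volume_eq_lintegral_sec p hK.compact.measurableSet,
    ← lintegral_add_compl _ (measurableSet_Iic (a := (0 : ℝ))), compl_Iic, hneg, hexp, two_mul]

/-- The midpoint inequality with `n - 2` common coordinate reflections. -/
theorem half_le : ∀ (m : ℕ) (S : Finset (Fin (m + 2))), S.card = m →
    ∀ K L : Set (Fin (m + 2) → ℝ), Ctr K → Ctr L → (∀ i ∈ S, FlipInv i K) →
      (∀ i ∈ S, FlipInv i L) → volume K * volume L ≤ volume (half K L) ^ 2 := by
  intro m
  induction m with
  | zero => exact fun _ _ K L hK hL _ _ => planar hK hL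
  | succ m ih =>
    intro S hS K L hK hL hSK hSL
    obtain ⟨p, hp⟩ : S.Nonempty := Finset.card_pos.1 (by omega)
    set S' : Finset (Fin (m + 2)) := Finset.univ.filter fun j => p.succAbove j ∈ S
    have hS' : S'.card = m := by
      have himg : S'.image p.succAbove = S.erase p := by
        ext i
        simp only [S', Finset.mem_image, Finset.mem_filter, Finset.mem_univ, true_and,
          Finset.mem_erase]
        refine ⟨fun ⟨j, hj, he⟩ => he ▸ ⟨Fin.succAbove_ne p j, hj⟩, fun ⟨hne, hi⟩ => ?_⟩
        obtain ⟨j, rfl⟩ := Fin.exists_succAbove_eq hne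
        exact ⟨j, hi, rfl⟩
      rw [← Finset.card_image_of_injective S' Fin.succAbove_right_injective, himg,
        Finset.card_erase_of_mem hp, hS]
      rfl
    have hW := ctr_half hK hL
    have hWp := flipInv_half hK hL (hSK p hp) (hSL p hp)
    set f := fun s => ENNReal.ofReal (Real.exp s) * volume (sec p K (Real.exp s))
    set g := fun s => ENNReal.ofReal (Real.exp s) * volume (sec p L (Real.exp s))
    set h := fun s => ENNReal.ofReal (Real.exp s) * volume (sec p (half K L) (Real.exp s))
    have hm : ∀ A : Set (Fin (m + 1 + 2) → ℝ), IsCompact A →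
        Measurable fun s => ENNReal.ofReal (Real.exp s) * volume (sec p A (Real.exp s)) :=
      fun A hA => Real.measurable_exp.ennreal_ofReal.mul
        ((measurable_sec_volume p hA.measurableSet).comp Real.measurable_exp)
    have key := P047.Disproof.prekopa_real (hm K hK.compact) (hm L hL.compact) (hm _ hW.compact)
      fun a b => by
        rcases (sec p K (Real.exp a)).eq_empty_or_nonempty with ha | ha
        · simp [ha]
        rcases (sec p L (Real.exp b)).eq_empty_or_nonempty with hb | hb
        · simp [hb]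
        have h1 := ih S' hS' _ _ (ctr_sec hK (hSK p hp) ha) (ctr_sec hL (hSL p hp) hb)
          (fun j hj => flipInv_sec (hSK _ (Finset.mem_filter.1 hj).2) _)
          (fun j hj => flipInv_sec (hSL _ (Finset.mem_filter.1 hj).2) _)
        have h2 := h1.trans (pow_le_pow_left' (measure_mono (sec_half hK hL (hSK p hp) (hSL p hp)
          (Real.exp_pos a).le (Real.exp_pos b).le ha hb)) 2)
        have hmid : √(Real.exp a * Real.exp b) = Real.exp ((a + b) / 2) := by
          rw [← Real.exp_add, ← Real.exp_half]
        rw [hmid] at h2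
        rw [mul_mul_mul_comm, mul_pow, ← ENNReal.ofReal_mul (Real.exp_pos a).le, ← Real.exp_add,
          ← ENNReal.ofReal_pow (Real.exp_pos _).le, ← Real.exp_nat_mul,
          show ((2 : ℕ) : ℝ) * ((a + b) / 2) = a + b by push_cast; ring]
        exact mul_le_mul_right h2 _
    rw [volume_eq_exp p hK (hSK p hp), volume_eq_exp p hL (hSL p hp), volume_eq_exp p hW hWp,
      mul_mul_mul_comm, mul_pow, sq (2 : ℝ≥0∞)]
    exact mul_le_mul_right key _

end

end Vale.Agent.P227
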